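import Vale.Agent.P300L.Jo

/-!
The blocks `PRD` and `SEG`: Segre products of local lifts.
-/

open scoped Manifold ContDiff Topology Matrix
open Set Filter
open Vale.Agent.P272.K (Cm Chart At)
open Vale.Agent.P272.K.Prod (fstP sndP)
open Vale.Agent.P281Z Vale.Agent.P300L
open Vale.Agent.P280Z.Gp (Lifts)

noncomputable section

namespace Vale.Agent.P300LH

variable {N M : ℕ}

theorem kr_apply (v : Cm N) (w : Cm M) (i : Fin N) (j : Fin M) :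
    kr v w (finProdFinEquiv (i, j)) = v i * w j := by simp [kr]

theorem kr_smul (a b : ℂ) (v : Cm N) (w : Cm M) : kr (a • v) (b • w) = (a * b) • kr v w := by
  funext i
  simp only [kr, Pi.smul_apply, smul_eq_mul]
  ring

theorem kr_ne {v : Cm N} {w : Cm M} (hv : v ≠ 0) (hw : w ≠ 0) : kr v w ≠ 0 := fun h => by
  obtain ⟨i, hi⟩ := Function.ne_iff.1 hv
  obtain ⟨j, hj⟩ := Function.ne_iff.1 hw
  exact mul_ne_zero hi hj ((kr_apply v w i j).symm.trans (congrFun h _))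

theorem kr_dot (u v : Cm N) (u' v' : Cm M) : kr u u' ⬝ᵥ kr v v' = (u ⬝ᵥ v) * (u' ⬝ᵥ v') := by
  rw [dotProduct, ← finProdFinEquiv.sum_comp, dotProduct, dotProduct, Finset.sum_mul_sum,
    Fintype.sum_prod_type]
  exact Finset.sum_congr rfl fun i _ => Finset.sum_congr rfl fun j _ => by
    rw [kr_apply, kr_apply]
    ring

theorem kr_par {v v' : Cm N} {w w' : Cm M} (hv : v ≠ 0) (hw : w ≠ 0) {c : ℂ}
    (h : kr v w = c • kr v' w') : (∃ c : ℂ, v = c • v') ∧ ∃ c : ℂ, w = c • w' := by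
  obtain ⟨i, hi⟩ := Function.ne_iff.1 hv
  obtain ⟨j, hj⟩ := Function.ne_iff.1 hw
  have k : ∀ i j, v i * w j = c * (v' i * w' j) := fun i j => by
    simpa only [Pi.smul_apply, kr_apply, smul_eq_mul] using congrFun h (finProdFinEquiv (i, j))
  refine ⟨⟨c * w' j / w j, funext fun a => ?_⟩, ⟨c * v' i / v i, funext fun a => ?_⟩⟩
  · rw [Pi.smul_apply, smul_eq_mul, div_mul_eq_mul_div, eq_div_iff hj, k]
    ring
  · rw [Pi.smul_apply, smul_eq_mul, div_mul_eq_mul_div, eq_div_iff hi, mul_comm, k]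
    ring

theorem kr_tan {v v' : Cm N} {w w' : Cm M} (hv : v ≠ 0) (hw : w ≠ 0) {c : ℂ}
    (h : kr v' w + kr v w' = c • kr v w) : (∃ c : ℂ, v' = c • v) ∧ ∃ c : ℂ, w' = c • w := by
  obtain ⟨i, hi⟩ := Function.ne_iff.1 hv
  obtain ⟨j, hj⟩ := Function.ne_iff.1 hw
  have k : ∀ i j, v' i * w j + v i * w' j = c * (v i * w j) := fun i j => by
    simpa only [Pi.smul_apply, Pi.add_apply, kr_apply, smul_eq_mul] using
      congrFun h (finProdFinEquiv (i, j))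
  refine ⟨⟨(c * w j - w' j) / w j, funext fun a => ?_⟩, ⟨(c * v i - v' i) / v i, funext fun a => ?_⟩⟩
  · rw [Pi.smul_apply, smul_eq_mul, div_mul_eq_mul_div, eq_div_iff hj]
    linear_combination k a j
  · rw [Pi.smul_apply, smul_eq_mul, div_mul_eq_mul_div, eq_div_iff hi]
    linear_combination k i a

theorem an_kr {E : Type} [NormedAddCommGroup E] [NormedSpace ℂ E] {f : E → Cm N} {g : E → Cm M}
    {z : E} (hf : AnalyticAt ℂ f z) (hg : AnalyticAt ℂ g z) :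
    AnalyticAt ℂ (fun z => kr (f z) (g z)) z :=
  analyticAt_pi_iff.2 fun _ => (analyticAt_pi_iff.1 hf _).mul (analyticAt_pi_iff.1 hg _)

theorem fderiv_kr {E : Type} [NormedAddCommGroup E] [NormedSpace ℂ E] {f : E → Cm N} {g : E → Cm M}
    {z : E} (hf : DifferentiableAt ℂ f z) (hg : DifferentiableAt ℂ g z) (ξ : E) :
    fderiv ℂ (fun z => kr (f z) (g z)) z ξ =
      kr (fderiv ℂ f z ξ) (g z) + kr (f z) (fderiv ℂ g z ξ) := by
  have h := hasFDerivAt_pi.2 fun i : Fin (N * M) =>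
    (hasFDerivAt_pi'.1 hf.hasFDerivAt (finProdFinEquiv.symm i).1).mul
      (hasFDerivAt_pi'.1 hg.hasFDerivAt (finProdFinEquiv.symm i).2)
  refine (congrArg (fun L : E →L[ℂ] Cm (N * M) => L ξ) h.fderiv).trans (funext fun i => ?_)
  simp [kr]
  ring

section

variable {n : ℕ} {X : Type} [TopologicalSpace X] [ChartedSpace (Cm n) X] {κ : Type}
  {O : κ → Set X} {a : κ → X → Cm N} {a' : κ → X → Cm M}

/-- the derivative in a chart -/
abbrev dv (t : X → Cm N) (e : Chart n X) (x : X) (ξ : Cm n) : Cm N :=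
  fderiv ℂ (fun z => t (e.symm z)) (e x) ξ

theorem lo_of (h : Lifts n O a) : Lo n O a := ⟨h.opn, h.cov, h.hol, h.nz, h.chg⟩

theorem lo_kr (h : Lo n O a) (h' : Lo n O a') : Lo n O fun b x => kr (a b x) (a' b x) where
  opn := h.opn
  cov := h.cov
  hol b x hx e he := an_kr (h.hol b x hx e he) (h'.hol b x hx e he)
  nz b x hx := kr_ne (h.nz b x hx) (h'.nz b x hx)
  chg b b' x hx hx' := by
    obtain ⟨c, hc⟩ := h.chg b b' x hx hx'
    obtain ⟨c', hc'⟩ := h'.chg b b' x hx hx'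
    exact ⟨c * c', by rw [hc, hc', kr_smul]⟩

theorem tan_kr (h : Lo n O a) (h' : Lo n O a') {b : κ} {x : X} (hx : x ∈ O b) {e : Chart n X}
    (he : At e x) {ξ : Cm n} {c : ℂ}
    (k : dv (fun x => kr (a b x) (a' b x)) e x ξ = c • kr (a b x) (a' b x)) :
    (∃ c : ℂ, dv (a b) e x ξ = c • a b x) ∧ ∃ c : ℂ, dv (a' b) e x ξ = c • a' b x := by
  rw [dv, fderiv_kr (h.hol b x hx e he).differentiableAt (h'.hol b x hx e he).differentiableAt,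
    e.left_inv he.2] at k
  exact kr_tan (h.nz b x hx) (h'.nz b x hx) k

theorem lifts_kr (h : Lo n O a) (h' : Lo n O a')
    (inj : ∀ b b' x x', x ∈ O b → x' ∈ O b' → (∃ c : ℂ, a b x = c • a b' x') →
      (∃ c : ℂ, a' b x = c • a' b' x') → x = x')
    (imm : ∀ b, ∀ x ∈ O b, ∀ e : Chart n X, At e x → ∀ ξ : Cm n,
      (∃ c : ℂ, dv (a b) e x ξ = c • a b x) → (∃ c : ℂ, dv (a' b) e x ξ = c • a' b x) → ξ = 0) :
    Lifts n O fun b x => kr (a b x) (a' b x) :=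
  have k := lo_kr h h'
  ⟨k.opn, k.cov, k.hol, k.nz, k.chg, fun b b' x x' hx hx' ⟨_, hc⟩ =>
    have k := kr_par (h.nz b x hx) (h'.nz b x hx) hc
    inj b b' x x' hx hx' k.1 k.2, fun b x hx e he ξ _ hc =>
    have k := tan_kr h h' hx he hc
    imm b x hx e he ξ k.1 k.2⟩

end

section

variable {n p : ℕ} {V : Mf n} {W : Mf p} {κ κ' : Type} {O : κ → Set V.X} {O' : κ' → Set W.X}
  {a : κ → V.X → Cm N} {a' : κ' → W.X → Cm M}

/-- the first projection as a linear map -/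
def fstL (n p : ℕ) : Cm (n + p) →L[ℂ] Cm n :=
  ContinuousLinearMap.pi fun i => ContinuousLinearMap.proj (Fin.castAdd p i)

/-- the second projection as a linear map -/
def sndL (n p : ℕ) : Cm (n + p) →L[ℂ] Cm p :=
  ContinuousLinearMap.pi fun i => ContinuousLinearMap.proj (Fin.natAdd n i)

theorem fstL_pc (e : Chart n V.X) (e' : Chart p W.X) (x : (V.prod W).X) :
    fstL n p (V.pc W e e' x) = e x.1 := P272.K.Prod.fstP_glue _ _

theorem sndL_pc (e : Chart n V.X) (e' : Chart p W.X) (x : (V.prod W).X) :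
    sndL n p (V.pc W e e' x) = e' x.2 := P272.K.Prod.sndP_glue _ _

theorem dv_fst {t : V.X → Cm N} {e : Chart n V.X} (e' : Chart p W.X) {x : (V.prod W).X}
    (h : AnalyticAt ℂ (fun z => t (e.symm z)) (e x.1)) (ξ : Cm (n + p)) :
    dv (fun y : (V.prod W).X => t y.1) (V.pc W e e') x ξ = dv t e x.1 (fstP ξ) := by
  have k := (fstL_pc e e' x ▸ h).differentiableAt.hasFDerivAt.comp _ (fstL n p).hasFDerivAt
  rw [fstL_pc] at k
  exact congrArg (fun L : Cm (n + p) →L[ℂ] Cm N => L ξ) k.fderiv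

theorem dv_snd {t : W.X → Cm N} (e : Chart n V.X) {e' : Chart p W.X} {x : (V.prod W).X}
    (h : AnalyticAt ℂ (fun z => t (e'.symm z)) (e' x.2)) (ξ : Cm (n + p)) :
    dv (fun y : (V.prod W).X => t y.2) (V.pc W e e') x ξ = dv t e' x.2 (sndP ξ) := by
  have k := (sndL_pc e e' x ▸ h).differentiableAt.hasFDerivAt.comp _ (sndL n p).hasFDerivAt
  rw [sndL_pc] at k
  exact congrArg (fun L : Cm (n + p) →L[ℂ] Cm N => L ξ) k.fderiv

theorem lo_fst (h : Lo n O a) (h' : Lo p O' a') :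
    Lo (n + p) (X := (V.prod W).X) (fun k : κ × κ' => {x | x.1 ∈ O k.1 ∧ x.2 ∈ O' k.2})
      fun k x => a k.1 x.1 where
  opn k := ((h.opn k.1).preimage cont_p1).inter ((h'.opn k.2).preimage cont_p2)
  cov x := (h.cov x.1).elim fun b hb => (h'.cov x.2).elim fun b' hb' => ⟨(b, b'), hb, hb'⟩
  hol k x hx E hE := by
    obtain ⟨e, e', rfl, he, -⟩ := at_prod_dec hE
    exact (fstL_pc e e' x ▸ h.hol k.1 x.1 hx.1 e he).comp ((fstL n p).analyticAt _)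
  nz k x hx := h.nz _ _ hx.1
  chg k k' x hx hx' := h.chg _ _ _ hx.1 hx'.1

theorem lo_snd (h : Lo n O a) (h' : Lo p O' a') :
    Lo (n + p) (X := (V.prod W).X) (fun k : κ × κ' => {x | x.1 ∈ O k.1 ∧ x.2 ∈ O' k.2})
      fun k x => a' k.2 x.2 where
  opn := (lo_fst h h').opn
  cov := (lo_fst h h').cov
  hol k x hx E hE := by
    obtain ⟨e, e', rfl, -, he⟩ := at_prod_dec hE
    exact (sndL_pc e e' x ▸ h'.hol k.2 x.2 hx.2 e' he).comp ((sndL n p).analyticAt _)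
  nz k x hx := h'.nz _ _ hx.2
  chg k k' x hx hx' := h'.chg _ _ _ hx.2 hx'.2

theorem eq_zero_of {ξ : Cm (n + p)} (h : fstP ξ = 0) (h' : sndP ξ = 0) : ξ = 0 := by
  rw [← P272.K.Prod.glue_fst_snd ξ, h, h']
  exact P272.K.Prod.glue_fst_snd 0

/-- the Segre embedding -/
theorem lifts_prod (h : Lifts n O a) (h' : Lifts p O' a') :
    Lifts (n + p) (X := (V.prod W).X) (fun k : κ × κ' => {x | x.1 ∈ O k.1 ∧ x.2 ∈ O' k.2})
      fun k x => kr (a k.1 x.1) (a' k.2 x.2) := by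
  refine lifts_kr (lo_fst (lo_of h) (lo_of h')) (lo_snd (lo_of h) (lo_of h'))
    (fun k k' x x' hx hx' c c' => Prod.ext (h.inj _ _ _ _ hx.1 hx'.1 c) (h'.inj _ _ _ _ hx.2 hx'.2 c'))
    fun k x hx E hE ξ ⟨c, hc⟩ ⟨c', hc'⟩ => ?_
  obtain ⟨e, e', rfl, he, he'⟩ := at_prod_dec hE
  exact eq_zero_of (h.imm _ _ hx.1 e he _ c ((dv_fst e' (h.hol _ _ hx.1 e he) ξ).symm.trans hc))
    (h'.imm _ _ hx.2 e' he' _ c' ((dv_snd e (h'.hol _ _ hx.2 e' he') ξ).symm.trans hc'))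

end

theorem seg : SEG := by
  intro d β m P T p₁ p₂ h
  have l := lo_of T.lf
  have k1 := lifts_prod h.l₁ T.lf
  have k2 := lo_fst (lo_fst (lo_of h.l₂) l) l
  have k3 := lo_snd (lo_of k1) l
  refine ⟨lo_fst (lo_of k1) l, lo_kr k2 k3, lifts_kr (lo_fst (lo_of k1) l) (lo_kr k2 k3)
    (fun k k' x x' hx hx' c ⟨_, c'⟩ => Prod.ext (k1.inj _ _ _ _ hx.1 hx'.1 c) (T.lf.inj _ _ _ _
      hx.2 hx'.2 (kr_par (k2.nz k x hx) (k3.nz k x hx) c').2))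
    fun k x hx E hE ξ ⟨c, hc⟩ ⟨_, hc'⟩ => ?_⟩
  obtain ⟨c', hc'⟩ := (tan_kr k2 k3 hx hE hc').2
  obtain ⟨e, e', rfl, he, he'⟩ := at_prod_dec hE
  exact eq_zero_of (k1.imm _ _ hx.1 e he _ c ((dv_fst (t := fun y : (P.X.prod T.B).X =>
    kr (P.s₁ k.1.1 y.1) (T.l k.1.2 y.2)) e' (k1.hol _ _ hx.1 e he) ξ).symm.trans hc))
    (T.lf.imm _ _ hx.2 e' he' _ c' ((dv_snd e (T.lf.hol _ _ hx.2 e' he') ξ).symm.trans hc'))

theorem prd : PRD := by
  intro τ τ' P Q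
  refine ⟨lifts_prod P.l₁ Q.l₁, lifts_prod P.l₂ Q.l₂, ?_, ?_, fun b x hx => ?_, fun b x hx => ?_,
    fun b x hx hA => ?_⟩
  · rintro b ⟨_, _⟩ ⟨⟨z, rfl⟩, ⟨w, rfl⟩⟩ hx
    exact mul_ne_zero (P.μhol _ z hx.1).2 (Q.μhol _ w hx.2).2
  · rintro b b' ⟨_, _⟩ ⟨⟨z, rfl⟩, ⟨w, rfl⟩⟩ hx hx'
    obtain ⟨c, c1, c2⟩ := P.μchg _ _ z hx.1 hx'.1
    obtain ⟨c', d1, d2⟩ := Q.μchg _ _ w hx.2 hx'.2
    refine ⟨c * c', (congrArg₂ kr c1 d1).trans (kr_smul _ _ _ _),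
      (kr_smul _ _ _ _).symm.trans ((congrArg₂ kr c2 d2).trans ?_)⟩
    rw [kr_smul, kr_smul]
    rfl
  · obtain ⟨t₁, t₂, h1, h2⟩ := P.r₁ _ _ hx.1
    obtain ⟨u₁, u₂, k1, k2⟩ := Q.r₁ _ _ hx.2
    refine ⟨kr t₁ u₁, kr t₂ u₂, (kr_dot _ _ _ _).trans_ne (mul_ne_zero h1 k1), ?_⟩
    rintro c ⟨_, _⟩ ⟨⟨z, rfl⟩, ⟨w, rfl⟩⟩ hc
    refine (kr_dot _ _ _ _).trans (Eq.trans ?_ (congrArg _ (kr_dot _ _ _ _).symm))
    rw [h2 _ z hc.1, k2 _ w hc.2]
    exact mul_mul_mul_comm _ _ _ _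
  · obtain ⟨t₁, t₂, h1, h2⟩ := P.r₂ _ _ hx.1
    obtain ⟨u₁, u₂, k1, k2⟩ := Q.r₂ _ _ hx.2
    refine ⟨kr t₁ u₁, kr t₂ u₂, (kr_dot _ _ _ _).trans_ne (mul_ne_zero h1 k1), ?_⟩
    rintro c ⟨_, _⟩ ⟨⟨z, rfl⟩, ⟨w, rfl⟩⟩ hc
    refine (kr_dot _ _ _ _).trans (Eq.trans ?_ (congrArg _ (kr_dot _ _ _ _).symm))
    rw [h2 _ z hc.1, k2 _ w hc.2]
    exact mul_mul_mul_comm _ _ _ _
  · rcases not_and_or.1 hA with hA | hA
    · obtain ⟨t₁, h1, h2⟩ := P.r₃ _ _ hx.1 hA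
      obtain ⟨u₁, -, k1, -⟩ := Q.r₁ _ _ hx.2
      refine ⟨kr t₁ u₁, (kr_dot _ _ _ _).trans_ne (mul_ne_zero h1 k1), ?_⟩
      rintro c ⟨_, _⟩ ⟨⟨z, rfl⟩, ⟨w, rfl⟩⟩ hc
      exact (kr_dot _ _ _ _).trans (mul_eq_zero_of_left (h2 _ z hc.1) _)
    · obtain ⟨t₁, -, h1, -⟩ := P.r₁ _ _ hx.1
      obtain ⟨u₁, k1, k2⟩ := Q.r₃ _ _ hx.2 hA
      refine ⟨kr t₁ u₁, (kr_dot _ _ _ _).trans_ne (mul_ne_zero h1 k1), ?_⟩
      rintro c ⟨_, _⟩ ⟨⟨z, rfl⟩, ⟨w, rfl⟩⟩ hc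
      exact (kr_dot _ _ _ _).trans (mul_eq_zero_of_right _ (k2 _ w hc.2))

end Vale.Agent.P300LH
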