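import Mathlib.GroupTheory.Finiteness
import Mathlib.GroupTheory.Index
import Mathlib.GroupTheory.Schreier
import Mathlib.Analysis.Complex.Basic
import Mathlib.LinearAlgebra.Dual.Lemmas
import Mathlib.LinearAlgebra.Basis.VectorSpace
import Mathlib.Data.ZMod.Basic
import Mathlib.Analysis.SpecialFunctions.Complex.Log

/-!
An integral cocycle that is cohomologous to a bi-additive one is virtually divisible.
-/

namespace Vale.Agent.P300LH

variable {G : Type*} [Group G]

theorem fi_dvd (F : G → ℤ) {k : ℕ} (hk : k ≠ 0) (h : ∀ g g', (k : ℤ) ∣ F g + F g' - F (g * g')) :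
    ∃ H : Subgroup G, H.FiniteIndex ∧ ∀ g ∈ H, (k : ℤ) ∣ F g := by
  have : NeZero k := ⟨hk⟩
  let φ : G →* Multiplicative (ZMod k) := MonoidHom.mk' (fun g => Multiplicative.ofAdd (F g))
    fun g g' => by
      rw [← ofAdd_add]
      have := (ZMod.intCast_zmod_eq_zero_iff_dvd _ k).2 (h g g')
      push_cast at this
      rw [← sub_eq_zero.1 this]
  exact ⟨φ.ker, inferInstance, fun g hg => (ZMod.intCast_zmod_eq_zero_iff_dvd _ k).1 hg⟩

theorem heis_int [Group.FG G] (c B : G → G → ℤ) (F : G → ℤ) {k n : ℕ} (hk : k ≠ 0) (hn : n ≠ 0)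
    (h1 : ∀ g g' h, B (g * g') h = B g h + B g' h) (h2 : ∀ g h h', B g (h * h') = B g h + B g h')
    (hc : ∀ g h, k * c g h = B g h + F g + F h - F (g * h)) :
    ∃ (H : Subgroup G) (ε : G → ℤ), H.FiniteIndex ∧
      ∀ g ∈ H, ∀ h ∈ H, (n : ℤ) ∣ c g h - (ε g + ε h - ε (g * h)) := by
  obtain ⟨S, hS⟩ := Group.fg_def.1 (inferInstance : Group.FG G)
  choose K K1 K2 using fun s : S => fi_dvd (fun g => B g s) (mul_ne_zero hk hn) fun g g' => by
    rw [h1, sub_self]
    exact dvd_zero _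
  have := Subgroup.finiteIndex_iInf K1
  have hB : ∀ g ∈ ⨅ s, K s, ∀ h, ((k * n : ℕ) : ℤ) ∣ B g h := fun g hg h => by
    have e : B g 1 = 0 := by
      have := h2 g 1 1
      rw [mul_one] at this
      omega
    have hh : h ∈ Subgroup.closure (S : Set G) := hS ▸ Subgroup.mem_top h
    induction hh using Subgroup.closure_induction with
    | mem s hs => exact K2 ⟨s, hs⟩ g (Subgroup.mem_iInf.1 hg _)
    | one => exact e ▸ dvd_zero _
    | mul a b _ _ ha hb => exact h2 g a b ▸ dvd_add ha hb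
    | inv a _ ha =>
      have := h2 g a a⁻¹
      rw [mul_inv_cancel, e] at this
      rw [eq_neg_of_add_eq_zero_right this.symm]
      exact ha.neg_right
  generalize ⨅ s, K s = K at hB this
  obtain ⟨H, H1, H2⟩ := fi_dvd (G := K) (fun g => F g) hk fun g g' => by
    have e : F g + F g' - F (g * g' : K) = k * c g g' - B g g' := by
      rw [hc, Subgroup.coe_mul]
      ring
    rw [e]
    exact (dvd_mul_right _ _).sub ((Nat.cast_dvd_cast (dvd_mul_right k n)).trans (hB g g.2 g'))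
  have d : ∀ g ∈ H.map K.subtype, (k : ℤ) * (F g / k) = F g := by
    rintro _ ⟨g, hg, rfl⟩
    exact Int.mul_ediv_cancel' (H2 g hg)
  refine ⟨H.map K.subtype, fun g => F g / k, ⟨?_⟩, fun g hg h hh => ?_⟩
  · rw [Subgroup.index_map_subtype]
    exact mul_ne_zero H1.index_ne_zero this.index_ne_zero
  · refine Int.dvd_of_mul_dvd_mul_left (Int.natCast_ne_zero.2 hk) ?_
    rw [mul_sub, mul_sub, mul_add, d g hg, d h hh, d _ (mul_mem hg hh), hc]
    have := hB g (Subgroup.map_subtype_le H hg) h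
    push_cast at this
    rwa [show B g h + F g + F h - F (g * h) - (F g + F h - F (g * h)) = B g h by ring]

/-- **HEIS** -/
theorem heis [Group.FG G] (c : G → G → ℤ) (b : G → G → ℂ) (f : G → ℂ) {n : ℕ} (hn : n ≠ 0)
    (h1 : ∀ g g' h, b (g * g') h = b g h + b g' h) (h2 : ∀ g h h', b g (h * h') = b g h + b g h')
    (hc : ∀ g h, (c g h : ℂ) = b g h + f g + f h - f (g * h)) :
    ∃ (H : Subgroup G) (ε : G → ℤ), H.FiniteIndex ∧
      ∀ g ∈ H, ∀ h ∈ H, (n : ℤ) ∣ c g h - (ε g + ε h - ε (g * h)) := by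
  classical
  obtain ⟨S, hS⟩ := Group.fg_def.1 (inferInstance : Group.FG G)
  obtain ⟨ρ, hρ⟩ := Module.Projective.exists_dual_eq_one ℚ (one_ne_zero (α := ℂ))
  have hz : ∀ m : ℤ, ρ m = m := fun m => by
    rw [← zsmul_one, map_zsmul, hρ, zsmul_one]
  obtain ⟨k, hk, k1, k2⟩ : ∃ k : ℕ, k ≠ 0 ∧ (∀ s ∈ S, ∀ t ∈ S, ∃ m : ℤ, k * ρ (b s t) = m) ∧
      ∀ s ∈ insert 1 S, ∃ m : ℤ, k * ρ (f s) = m := by
    have key : ∀ (T : Finset ℚ), ∃ k : ℕ, k ≠ 0 ∧ ∀ x ∈ T, ∃ m : ℤ, k * x = m := fun T =>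
      ⟨∏ x ∈ T, x.den, Finset.prod_ne_zero_iff.2 fun x _ => x.den_nz, fun x hx => by
        obtain ⟨u, hu⟩ := Finset.dvd_prod_of_mem (fun x : ℚ => x.den) hx
        refine ⟨u * x.num, ?_⟩
        rw [hu]
        push_cast
        rw [mul_right_comm, Rat.den_mul_eq_num, mul_comm]⟩
    obtain ⟨k, hk, h⟩ := key (((S ×ˢ S).image fun p => ρ (b p.1 p.2)) ∪
      (insert 1 S).image fun s => ρ (f s))
    exact ⟨k, hk, fun s hs t ht => h _ (Finset.mem_union_left _ (Finset.mem_image_of_mem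
      (fun p : G × G => ρ (b p.1 p.2)) (Finset.mk_mem_product hs ht))), fun s hs =>
      h _ (Finset.mem_union_right _ (Finset.mem_image_of_mem (fun s => ρ (f s)) hs))⟩
  let M : AddSubgroup ℂ :=
    { carrier := {x | ∃ m : ℤ, k * ρ x = m}
      zero_mem' := ⟨0, by simp⟩
      add_mem' := fun ⟨a, ha⟩ ⟨b, hb⟩ => ⟨a + b, by rw [map_add, mul_add, ha, hb, Int.cast_add]⟩
      neg_mem' := fun ⟨a, ha⟩ => ⟨-a, by rw [map_neg, mul_neg, ha, Int.cast_neg]⟩ }
  have top : ∀ g, g ∈ Subgroup.closure (S : Set G) := fun g => hS ▸ Subgroup.mem_top g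
  have ad : ∀ u : G → ℂ, (∀ g h, u (g * h) = u g + u h) → (∀ s ∈ S, u s ∈ M) → ∀ g, u g ∈ M :=
    fun u hu hs g => by
      have e : u 1 = 0 := by simpa using hu 1 1
      induction top g using Subgroup.closure_induction with
      | mem s h => exact hs s h
      | one => exact e ▸ M.zero_mem
      | mul a b _ _ ha hb => exact hu a b ▸ M.add_mem ha hb
      | inv a _ ha =>
        have := hu a a⁻¹
        rw [mul_inv_cancel, e] at this
        rw [eq_neg_of_add_eq_zero_right this.symm]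
        exact M.neg_mem ha
  have hb : ∀ g h, b g h ∈ M := fun g h =>
    ad (fun g => b g h) (fun g g' => h1 g g' h) (fun s hs => ad (b s) (h2 s) (k1 s hs) h) g
  have hm : ∀ m : ℤ, (m : ℂ) ∈ M := fun m => ⟨k * m, by rw [hz]; push_cast; rfl⟩
  have f1 : f 1 ∈ M := k2 1 (Finset.mem_insert_self _ _)
  have hf : ∀ g, f g ∈ M := fun g => by
    induction top g using Subgroup.closure_induction with
    | mem s h => exact k2 s (Finset.mem_insert_of_mem h)
    | one => exact f1
    | mul a a' _ _ ha hb' =>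
      rw [show f (a * a') = b a a' + f a + f a' - c a a' by rw [hc]; ring]
      exact M.sub_mem (M.add_mem (M.add_mem (hb _ _) ha) hb') (hm _)
    | inv a _ ha =>
      rw [show f a⁻¹ = c a a⁻¹ - b a a⁻¹ - f a + f 1 by rw [hc, mul_inv_cancel]; ring]
      exact M.add_mem (M.sub_mem (M.sub_mem (hm _) (hb _ _)) ha) f1
  choose B hB using hb
  choose F hF using hf
  refine heis_int c B F hk hn (fun g g' h => ?_) (fun g h h' => ?_) fun g h => ?_
  all_goals
    apply Int.cast_injective (α := ℚ)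
    push_cast
    simp only [← hB, ← hF]
  · rw [h1, map_add, mul_add]
  · rw [h2, map_add, mul_add]
  · rw [← hz, hc, map_sub, map_add, map_add]
    ring

/-- The square root of a cocycle `exp (lam g z)` whose class is bi-additive. -/
theorem root [Group.FG G] {X : Type*} {Ω : Set X} {x₀ : X} (hx : x₀ ∈ Ω) (a : G → X → X)
    (lam : G → X → ℂ) (b : G → G → ℂ) (f : G → ℂ)
    (h1 : ∀ g g' h, b (g * g') h = b g h + b g' h) (h2 : ∀ g h h', b g (h * h') = b g h + b g h')
    (hc : ∀ g h, ∀ z ∈ Ω, lam g (a h z) + lam h z - lam (g * h) z = b g h + f g + f h - f (g * h))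
    (hJ : ∀ g h, Complex.exp (lam (g * h) x₀) =
      Complex.exp (lam g (a h x₀)) * Complex.exp (lam h x₀)) :
    ∃ (H : Subgroup G) (e : G → ℂ), H.FiniteIndex ∧ (∀ g, e g ^ 2 = 1) ∧
      ∀ g ∈ H, ∀ h ∈ H, ∀ z ∈ Ω, e (g * h) * Complex.exp (lam (g * h) z / 2) =
        e g * Complex.exp (lam g (a h z) / 2) * (e h * Complex.exp (lam h z / 2)) := by
  have p0 : (2 * Real.pi * Complex.I : ℂ) ≠ 0 := Complex.two_pi_I_ne_zero
  choose c hc' using fun g h => Complex.exp_eq_exp_iff_exists_int.1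
    ((Complex.exp_add _ _).trans (hJ g h).symm)
  have k : ∀ g h, b g h + f g + f h - f (g * h) = c g h * (2 * Real.pi * Complex.I) := fun g h => by
    rw [← hc g h x₀ hx, hc']
    ring
  obtain ⟨H, ε, hH, h⟩ := heis c (fun g h => b g h / (2 * Real.pi * Complex.I))
    (fun g => f g / (2 * Real.pi * Complex.I)) two_ne_zero (fun g g' h => by rw [h1, add_div])
    (fun g h h' => by rw [h2, add_div]) fun g h => by
      rw [← add_div, ← add_div, ← sub_div, k, mul_div_cancel_right₀ _ p0]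
  refine ⟨H, fun g => Complex.exp (-(ε g * (Real.pi * Complex.I))), hH, fun g => ?_,
    fun g hg g' hg' z hz => ?_⟩
  · rw [← Complex.exp_nat_mul, Complex.exp_eq_one_iff]
    exact ⟨-ε g, by push_cast; ring⟩
  · obtain ⟨m, hm⟩ := h g hg g' hg'
    have e1 := (hc g g' z hz).trans (k g g')
    have e2 : (c g g' : ℂ) = ε g + ε g' - ε (g * g') + 2 * m := by
      exact_mod_cast (by push_cast at hm; omega : c g g' = ε g + ε g' - ε (g * g') + 2 * m)
    simp only [← Complex.exp_add]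
    refine Complex.exp_eq_exp_iff_exists_int.2 ⟨-m, ?_⟩
    rw [e2] at e1
    push_cast
    linear_combination (-1 / 2 : ℂ) * e1

end Vale.Agent.P300LH
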