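import Vale.Agent.P300LT.Defs
import Vale.Agent.P300LH.Heis

/-!
The blocks `MAC`, `CLOSED` and `ALG`.
-/

open Set Filter Topology Metric
open Vale.Agent.P288.BQ P300LT

namespace Vale.Agent.P300LH

/-- A cocycle of constants for a cover of a simply connected space by connected sets. -/
theorem cech {X ι A : Type*} [TopologicalSpace X] [SimplyConnectedSpace X]
    [LocallyPathConnectedSpace X] [AddCommGroup A] (U : ι → Set X) (hU : ∀ i, IsOpen (U i))
    (hc : ∀ i, IsPreconnected (U i)) (hcov : ∀ x, ∃ i, x ∈ U i) (a : ι → ι → A)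
    (ha : ∀ i j k x, x ∈ U i → x ∈ U j → x ∈ U k → a i j + a j k = a i k) :
    ∃ f : ι → A, ∀ i j x, x ∈ U i → x ∈ U j → a i j = f j - f i := by
  classical
  let : TopologicalSpace A := ⊥
  have : DiscreteTopology A := ⟨rfl⟩
  choose idx hidx using hcov
  let Z : FiberBundleCore ι X A :=
    { baseSet := U
      isOpen_baseSet := hU
      indexAt := idx
      mem_baseSet_at := hidx
      coordChange := fun i j _ v => v + a i j
      coordChange_self := fun i x hx v => by
        rw [add_eq_left, ← add_eq_left (a := a i i)]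
        exact ha i i i x hx hx hx
      continuousOn_coordChange := fun i j =>
        ((continuous_of_discreteTopology (f := fun v : A => v + a i j)).comp
          continuous_snd).continuousOn
      coordChange_comp := fun i j k x hx v => by
        rw [add_assoc, ha i j k x hx.1.1 hx.1.2 hx.2] }
  have cov : IsCoveringMap Z.proj := FiberBundle.isCoveringMap (F := A) (E := Z.Fiber)
  obtain ⟨x₀⟩ : Nonempty X := inferInstance
  obtain ⟨σ, ⟨-, hσ⟩, -⟩ := cov.existsUnique_continuousMap_lifts (ContinuousMap.id X) x₀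
    ⟨x₀, (0 : A)⟩ rfl
  have hp : ∀ x, (σ x).1 = x := fun x => congrFun hσ x
  let s : X → A := fun x => (σ x).2
  have hs : ∀ i, ContinuousOn (fun x => s x + a (idx x) i) (U i) := fun i => by
    have h1 := ((Z.localTriv i).continuousOn.comp σ.continuous.continuousOn (s := U i)
      fun x hx => by
        rw [Z.mem_localTriv_source, hp]
        exact hx).snd
    refine h1.congr fun x _ => ?_
    change _ = s x + a (idx (σ x).1) i
    rw [hp]
  refine ⟨fun i => if h : (U i).Nonempty then s h.some + a (idx h.some) i else 0,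
    fun i j x hi hj => ?_⟩
  have e : ∀ i (h : x ∈ U i), (if h : (U i).Nonempty then s h.some + a (idx h.some) i else 0) =
      s x + a (idx x) i := fun i h => by
    rw [dif_pos ⟨x, h⟩]
    exact (hc i).constant (hs i) (Nonempty.some_mem _) h
  beta_reduce
  rw [e i hi, e j hj, ← ha _ i j x (hidx x) hi hj]
  abel

theorem exists_convex {E : Type*} [NormedAddCommGroup E] [NormedSpace ℝ E] [ProperSpace E]
    {D K : Set E} (hD : IsOpen D) (hc : Convex ℝ D) (hK : IsCompact K) (hKD : K ⊆ D) :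
    ∃ C : Set E, IsCompact C ∧ Convex ℝ C ∧ C ⊆ D ∧ K ⊆ interior C := by
  obtain ⟨δ, hδ, h1⟩ := hK.exists_thickening_subset_open hD hKD
  obtain ⟨R, h2⟩ := hK.isBounded.subset_ball 0
  refine ⟨closedBall 0 (R + δ) ∩ {x | ball x (δ / 2) ⊆ D}, (isCompact_closedBall _ _).inter_right ?_,
    (convex_closedBall _ _).inter ?_, fun x hx => hx.2 (mem_ball_self (half_pos hδ)),
    fun x hx => mem_interior_iff_mem_nhds.2 ?_⟩
  · simp only [subset_def, ofPred_forall]
    refine isClosed_iInter fun y => ?_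
    by_cases hy : y ∈ D
    · simp [hy]
    · simp only [hy, mem_ball]
      simpa [hy] using isClosed_le continuous_const (continuous_const.dist continuous_id)
  · intro x hx y hy a b ha hb hab z hz
    have e : z = a • (x + (z - (a • x + b • y))) + b • (y + (z - (a • x + b • y))) := by
      rw [smul_add, smul_add, add_add_add_comm, ← add_smul, hab, one_smul, add_sub_cancel]
    rw [e]
    rw [mem_ball, dist_eq_norm] at hz
    exact hc (hx (by simpa using hz)) (hy (by simpa using hz)) ha hb hab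
  · filter_upwards [ball_mem_nhds x (half_pos hδ)] with y hy
    have h3 := mem_ball.1 (h2 hx)
    rw [mem_ball] at hy
    refine ⟨mem_closedBall.2 (by linarith [dist_triangle y x 0]), fun z hz => h1 ?_⟩
    exact mem_thickening_iff.2 ⟨x, hx, by linarith [dist_triangle z y x, mem_ball.1 hz]⟩

variable {G : Type} [Group G]

theorem coc_cob (b : G → ℂ) : IsCoc (cob b) := fun _ _ _ => by
  simp only [cob, mul_assoc]
  ring

theorem coc_sub {c c' : G → G → ℂ} (h : IsCoc c) (h' : IsCoc c') :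
    IsCoc fun g g' => c g g' - c' g g' := fun a b d => by
  linear_combination h a b d - h' a b d

theorem mac : MAC := by
  intro p Q hc
  classical
  obtain ⟨K, k1, k2, k3⟩ := Q.cocompact
  obtain ⟨C, c1, c2, c3, c4⟩ := exists_convex Q.isOpen hc k2 k1
  have hS := Q.proper C c3 c1
  refine ⟨hS.toFinset ×ˢ hS.toFinset, fun c₀ h₀ ⟨b, hb⟩ => ?_⟩
  have hco := coc_sub h₀ (coc_cob b)
  set c : Q.Γ → Q.Γ → ℂ := fun g g' => c₀ g g' - cob b g g' with hcdef
  have := hc.contractibleSpace Q.nonempty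
  have := hc.locallyPathConnectedSpace
  have ac : ∀ g, Continuous fun x : Q.D => Q.act g x := fun g =>
    (Q.holo g).continuousOn.comp_continuous continuous_subtype_val fun x => x.2
  have inv : ∀ g, ∀ x ∈ Q.D, Q.act g⁻¹ (Q.act g x) = x := fun g x hx => by
    rw [← Q.mul_act _ _ _ hx, inv_mul_cancel, Q.one_act _ hx]
  let U : Q.Γ → Set Q.D := fun g => {x | Q.act g⁻¹ x ∈ interior C}
  have hU : ∀ g, IsOpen (U g) := fun g => isOpen_interior.preimage (ac _)
  have iD : interior C ⊆ Q.D := interior_subset.trans c3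
  have cov : ∀ x, ∃ g, x ∈ U g := fun x => by
    obtain ⟨g, hg⟩ := k3 x x.2
    exact ⟨g⁻¹, by simpa [U] using c4 hg⟩
  have mv : ∀ g h x, x ∈ U h → (⟨Q.act g x, Q.maps g x.2⟩ : Q.D) ∈ U (g * h) := fun g h x hx => by
    change Q.act (g * h)⁻¹ (Q.act g x) ∈ interior C
    rwa [mul_inv_rev, Q.mul_act _ _ _ (Q.maps g x.2), inv _ _ x.2]
  have hT : ∀ g h x, x ∈ U g → x ∈ U h → g⁻¹ * h ∈ hS.toFinset := fun g h x hg hh =>
    hS.mem_toFinset.2 ⟨_, ⟨_, interior_subset hh, by
      rw [← Q.mul_act _ _ _ x.2, mul_inv_cancel_right]⟩, interior_subset hg⟩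
  have z : ∀ s ∈ hS.toFinset, ∀ t ∈ hS.toFinset, c s t = 0 := fun s hs t ht =>
    sub_eq_zero.2 (hb (s, t) (Finset.mk_mem_product hs ht))
  obtain ⟨f, hf⟩ := cech U hU (fun g => by
      rw [← IsInducing.subtypeVal.isPreconnected_image]
      have e : Subtype.val '' U g = Q.act g '' interior C := by
        ext y
        refine ⟨?_, ?_⟩
        · rintro ⟨x, hx, rfl⟩
          exact ⟨_, hx, by simpa using inv g⁻¹ x x.2⟩
        · rintro ⟨x, hx, rfl⟩
          exact ⟨⟨_, Q.maps g (iD hx)⟩, by simpa [U, inv g x (iD hx)] using hx, rfl⟩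
      rw [e]
      exact c2.interior.isPreconnected.image _ ((Q.holo g).continuousOn.mono iD)) cov
    (fun g h => c g (g⁻¹ * h)) fun g h k x hg hh hk => by
      have h1 := hco g (g⁻¹ * h) (h⁻¹ * k)
      rw [z _ (hT _ _ x hg hh) _ (hT _ _ x hh hk), mul_inv_cancel_left, mul_assoc,
        mul_inv_cancel_left] at h1
      linear_combination -h1
  have he := coc_sub hco (coc_cob fun g => f 1 - f g)
  set e : Q.Γ → Q.Γ → ℂ := fun g g' => c g g' - cob (fun g => f 1 - f g) g g' with hedef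
  have e0 : ∀ g h k x, x ∈ U h → x ∈ U k → e g (h⁻¹ * k) = 0 := fun g h k x hh hk => by
    have h1 := hf _ _ _ (mv (g * h⁻¹) h x hh) (mv (g * h⁻¹) k x hk)
    have h2 := hf _ _ _ (mv h⁻¹ h x hh) (mv h⁻¹ k x hk)
    have h3 := z _ (hT _ _ x hh hh) _ (hT _ _ x hh hk)
    simp only [inv_mul_cancel, inv_one, one_mul, mul_assoc g,
      inv_mul_cancel_left, mul_one] at h1 h2 h3
    simp only [hedef, cob]
    linear_combination h1 - h2 + h3
  have e1 : ∀ g h k x, x ∈ U h → x ∈ U k → e g h = e g k := fun g h k x hh hk => by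
    have h1 := he g h (h⁻¹ * k)
    rw [e0 _ _ _ x hh hk, e0 _ _ _ x hh hk, mul_inv_cancel_left] at h1
    linear_combination -h1
  choose idx hidx using cov
  have lc : ∀ g, IsLocallyConstant fun x => e g (idx x) := fun g =>
    (IsLocallyConstant.iff_exists_open _).2 fun x =>
      ⟨U (idx x), hU _, hidx x, fun y hy => e1 g _ _ y (hidx y) hy⟩
  obtain ⟨x₀⟩ : Nonempty Q.D := inferInstance
  refine ⟨fun g => b g + (f 1 - f g), fun g h => ?_⟩
  have m : ∀ k, (⟨Q.act (k * (idx x₀)⁻¹) x₀, Q.maps _ x₀.2⟩ : Q.D) ∈ U k := fun k => by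
    simpa using mv (k * (idx x₀)⁻¹) _ x₀ (hidx x₀)
  have h1 : e g h = e g 1 := by
    rw [e1 g h _ _ (m h) (hidx _), e1 g 1 _ _ (m 1) (hidx _)]
    exact (lc g).apply_eq_of_preconnectedSpace _ _
  have h2 := e0 g 1 1 _ (m 1) (m 1)
  rw [inv_mul_cancel, ← h1] at h2
  simp only [hedef, hcdef, cob] at h2 ⊢
  linear_combination h2

theorem vcup_add {c c' : G → G → ℂ} (h : VCup c) (h' : VCup c') : VCup (c + c') := by
  obtain ⟨Δ, i1, n, a, a', b, h1, h2⟩ := h
  obtain ⟨Δ', i2, m, d, d', b', k1, k2⟩ := h'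
  refine ⟨Δ ⊓ Δ', inferInstance, n + m, Fin.append a d, Fin.append a' d', b + b', fun i => ?_,
    fun g hg g' hg' => ?_⟩
  · refine Fin.addCases (fun i => ?_) (fun i => ?_) i
    · rw [Fin.append_left, Fin.append_left]
      exact ⟨fun g hg g' hg' => (h1 i).1 g hg.1 g' hg'.1, fun g hg g' hg' => (h1 i).2 g hg.1 g' hg'.1⟩
    · rw [Fin.append_right, Fin.append_right]
      exact ⟨fun g hg g' hg' => (k1 i).1 g hg.2 g' hg'.2, fun g hg g' hg' => (k1 i).2 g hg.2 g' hg'.2⟩
  · simp only [Fin.sum_univ_add, Fin.append_left, Fin.append_right, Pi.add_apply, h2 g hg.1 g' hg'.1,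
      k2 g hg.2 g' hg'.2, cob]
    ring

theorem vcup_smul (t : ℂ) {c : G → G → ℂ} (h : VCup c) : VCup (t • c) := by
  obtain ⟨Δ, i1, n, a, a', b, h1, h2⟩ := h
  refine ⟨Δ, i1, n, t • a, a', t • b, fun i => ⟨fun g hg g' hg' => ?_, (h1 i).2⟩,
    fun g hg g' hg' => ?_⟩
  · simp only [Pi.smul_apply, smul_eq_mul, (h1 i).1 g hg g' hg', mul_add]
  · simp only [Pi.smul_apply, smul_eq_mul, h2 g hg g' hg', cob, mul_assoc, ← Finset.mul_sum]
    ring

theorem vcup_cob (b : G → ℂ) : VCup (cob b) :=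
  ⟨⊤, inferInstance, 0, 0, 0, b, fun i => i.elim0, fun _ _ _ _ => by simp⟩

theorem closed : CLOSED := by
  intro G _ ⟨T, hT⟩ c c' hc hl
  let W : Submodule ℂ (G → G → ℂ) :=
    { carrier := {c | IsCoc c ∧ VCup c}
      zero_mem' := ⟨fun _ _ _ => by simp, ⊤, inferInstance, 0, 0, 0, 0, fun i => i.elim0,
        fun _ _ _ _ => by simp [cob]⟩
      add_mem' := fun {u v} h h' => ⟨fun a b d => by
        simp only [Pi.add_apply]
        linear_combination h.1 a b d + h'.1 a b d, vcup_add h.2 h'.2⟩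
      smul_mem' := fun t u h => ⟨fun a b d => by
        simp only [Pi.smul_apply, smul_eq_mul]
        linear_combination t * h.1 a b d, vcup_smul t h.2⟩ }
  let ev : (G → G → ℂ) →ₗ[ℂ] (T → ℂ) :=
    { toFun := fun u q => u q.1.1 q.1.2
      map_add' := fun _ _ => rfl
      map_smul' := fun _ _ => rfl }
  obtain ⟨v, hv, e⟩ : ev c' ∈ W.map ev := (W.map ev).closed_of_finiteDimensional.mem_of_tendsto
    (tendsto_pi_nhds.2 fun q => hl q.1.1 q.1.2 : Tendsto (fun M => ev (c M)) atTop (𝓝 (ev c')))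
    (Eventually.of_forall fun M => Submodule.mem_map_of_mem (hc M))
  have h1 : IsCoc c' := fun a b d => tendsto_nhds_unique
    ((((hl b d).sub (hl _ d)).add (hl a _)).sub (hl a b))
    (tendsto_const_nhds.congr fun M => ((hc M).1 a b d).symm)
  obtain ⟨b, hb⟩ := hT _ (coc_sub h1 hv.1) ⟨0, fun q hq => by
    have : v q.1 q.2 = c' q.1 q.2 := congrFun e ⟨q, hq⟩
    simp [cob, this]⟩
  rw [show c' = v + cob b from funext₂ fun g g' => eq_add_of_sub_eq' (hb g g')]
  exact vcup_add hv.2 (vcup_cob b)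

theorem alg : ALG := by
  intro G _ hG n ⟨Δ, i1, m, a, a', b, h1, h2⟩
  classical
  have := Subgroup.fg_of_index_ne_zero Δ
  obtain ⟨H, ε, i2, h⟩ := heis (G := Δ) (fun g g' => n g g') (fun g g' => ∑ i, a i g * a' i g')
    (fun g => b g) two_ne_zero (fun g g' h => by
      simp only [Subgroup.coe_mul, (h1 _).1 _ g.2 _ g'.2, add_mul, Finset.sum_add_distrib])
    (fun g h h' => by
      simp only [Subgroup.coe_mul, (h1 _).2 _ h.2 _ h'.2, mul_add, Finset.sum_add_distrib])
    fun g h => by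
      refine (h2 _ g.2 _ h.2).trans ?_
      rw [cob, Subgroup.coe_mul]
      ring
  obtain ⟨f, hf⟩ : ∃ f : G → ℤ, ∀ g : Δ, f g = ε g :=
    ⟨fun g => if hg : g ∈ Δ then ε ⟨g, hg⟩ else 0, fun g => dif_pos g.2⟩
  refine ⟨H.map Δ.subtype, ⟨?_⟩, f, ?_⟩
  · rw [Subgroup.index_map_subtype]
    exact mul_ne_zero i2.index_ne_zero i1.index_ne_zero
  · rintro _ ⟨g, hg, rfl⟩ _ ⟨g', hg', rfl⟩
    rw [Subgroup.subtype_apply, Subgroup.subtype_apply, ← Subgroup.coe_mul, hf, hf, hf]
    exact even_iff_two_dvd.2 (h g hg g' hg')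

end Vale.Agent.P300LH
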